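import Mathlib
import Vale.Agent.Lib.P248.helper25.ABDefs

/-!
# P248: the anti-blocking dual of an orthant piece of a locally anti-blocking set

For a locally anti-blocking set `K` and a sign pattern `σ`, the anti-blocking dual of the
orthant piece `piece K σ` is the orthant piece `piece (ppolar K) σ` of the polar set.
The polar set is closed.
-/

open Vale.Agent.Lib.P248.H25 MeasureTheory
open scoped ENNReal

namespace Vale.Agent.Lib.P248.H36

/-- The coordinate reflection is an involution. -/
theorem refl_refl {n : ℕ} (σ : Fin n → Bool) (z : Fin n → ℝ) : refl σ (refl σ z) = z := by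
  funext i
  unfold H25.refl
  by_cases h : σ i = true
  · rw [if_pos h, if_pos h]
  · rw [if_neg h, if_neg h, neg_neg]

/-- The coordinate reflection preserves the standard bilinear form. -/
theorem sum_refl_mul_refl {n : ℕ} (σ : Fin n → Bool) (z w : Fin n → ℝ) :
    ∑ i, refl σ z i * refl σ w i = ∑ i, z i * w i := by
  refine Finset.sum_congr rfl fun i _ => ?_
  unfold H25.refl
  by_cases h : σ i = true
  · rw [if_pos h, if_pos h]
  · rw [if_neg h, if_neg h, neg_mul_neg]

/-- The coordinate reflection is self-adjoint for the standard bilinear form. -/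
theorem sum_mul_refl {n : ℕ} (σ : Fin n → Bool) (x w : Fin n → ℝ) :
    ∑ i, x i * refl σ w i = ∑ i, refl σ x i * w i := by
  refine Finset.sum_congr rfl fun i _ => ?_
  unfold H25.refl
  by_cases h : σ i = true
  · rw [if_pos h, if_pos h]
  · rw [if_neg h, if_neg h, mul_neg, neg_mul]

/-- The positive part of the reflection of a point of a locally anti-blocking set lies in
the orthant piece. -/
theorem posPart_mem_piece {n : ℕ} {K : Set (Fin n → ℝ)} (hlab : LAB K) (σ : Fin n → Bool)
    {x : Fin n → ℝ} (hx : x ∈ K) : (fun i => max (refl σ x i) 0) ∈ piece K σ := by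
  refine ⟨fun i => le_max_right _ _, ?_⟩
  refine hlab x hx _ fun i => ?_
  unfold H25.refl
  by_cases h : σ i = true
  · simp only [if_pos h]
    rcases le_total 0 (x i) with h0 | h0
    · rw [max_eq_left h0]
      exact ⟨mul_self_nonneg _, le_refl _⟩
    · rw [max_eq_right h0]
      exact ⟨by rw [mul_zero], by rw [abs_zero]; exact abs_nonneg _⟩
  · simp only [if_neg h]
    rcases le_total 0 (-x i) with h0 | h0
    · rw [max_eq_left h0, neg_neg]
      exact ⟨mul_self_nonneg _, le_refl _⟩
    · rw [max_eq_right h0, neg_zero]
      exact ⟨by rw [mul_zero], by rw [abs_zero]; exact abs_nonneg _⟩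

/-- The anti-blocking dual of the orthant piece of a locally anti-blocking set is the
orthant piece of its polar set. -/
theorem dual_piece {n : ℕ} {K : Set (Fin n → ℝ)} (hlab : LAB K) (σ : Fin n → Bool) :
    dual (piece K σ) = piece (ppolar K) σ := by
  ext w
  constructor
  · rintro ⟨hw, hd⟩
    refine ⟨hw, fun x hx => ?_⟩
    have hz := posPart_mem_piece hlab σ hx
    have h1 := hd _ hz
    rw [sum_mul_refl]
    refine le_trans (Finset.sum_le_sum fun i _ => ?_) h1
    exact mul_le_mul_of_nonneg_right (le_max_left _ _) (hw i)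
  · rintro ⟨hw, hp⟩
    refine ⟨hw, fun z hz => ?_⟩
    have h1 := hp _ hz.2
    rw [sum_refl_mul_refl] at h1
    exact h1

/-- The polar set is closed. -/
theorem isClosed_ppolar {n : ℕ} (K : Set (Fin n → ℝ)) : IsClosed (ppolar K) := by
  have h : ppolar K = ⋂ x ∈ K, {y : Fin n → ℝ | ∑ i, x i * y i ≤ 1} := by
    ext y
    rw [Set.mem_iInter₂]
    exact Iff.rfl
  rw [h]
  refine isClosed_biInter fun x _ => ?_
  refine isClosed_le ?_ continuous_const
  exact continuous_finsetSum _ fun i _ => continuous_const.mul (continuous_apply i)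

end Vale.Agent.Lib.P248.H36
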